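import Crest.Agent.X212.Hel40.Defs
import Crest.Agent.X212.Orx52.Sw
import Crest.Agent.X212.Bb31.Stm

/-!
# X212/Rgl52 (helper52): orientation, field, circle map and columns through a regluing (`ReglStmt`)
-/

set_option autoImplicit false
set_option linter.unusedSectionVars false
set_option linter.style.haveILetI false
set_option backward.isDefEq.respectTransparency false

open Set Filter Topology Function
open scoped ContDiff Manifold
open Crest.Agent.R208.F Crest.Agent.X212.Dr59 Crest.Agent.X212.Int54 Crest.Agent.X212.Cyl58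
open Crest.Agent.X212.Sep15 (EE IR CM Box slab px Rg)
open Crest.Agent.X212.Bb31 (Fm Cy Df Pos)
open Crest.Agent.X212.Flo26 (SmV fl)
open Crest.Agent.X212.Hel40

noncomputable section

namespace Crest.Agent.X212.Rgl52

section gen

variable {E : Type*} [NormedAddCommGroup E] [NormedSpace ℝ E] [FiniteDimensional ℝ E]
  {H : Type*} [TopologicalSpace H] {I : ModelWithCorners ℝ E H} [I.Boundaryless]
  {M : Type*} [TopologicalSpace M] [ChartedSpace H M] [IsManifold I ∞ M]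
  {E' : Type*} [NormedAddCommGroup E'] [NormedSpace ℝ E'] [FiniteDimensional ℝ E']
  {H' : Type*} [TopologicalSpace H'] {J : ModelWithCorners ℝ E' H'} [J.Boundaryless]
  {N : Type*} [TopologicalSpace N] [ChartedSpace H' N] [IsManifold J ∞ N]

theorem dl_comp {g : M → Circle} {φ : N → M} {y : N} (hg : ContMDiffAt I (𝓡 1) ∞ g (φ y))
    (hφ : MDifferentiableAt J I φ y) (w : E') : dl J (g ∘ φ) y w = dl I g (φ y) (mf J I φ y w) := by
  rw [dl, dl, Line51.tl_apply, Line51.tl_apply, ← Line51.dm_comp (Line51.msm_sc hg) hφ]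
  rfl

theorem dl_congr {g g' : M → Circle} {x : M} (e : g =ᶠ[𝓝 x] g') (w : E) :
    dl I g x w = dl I g' x w := by
  have h : Line51.sc g =ᶠ[𝓝 x] Line51.sc g' := e.mono fun y hy => by simp only [Line51.sc, hy]
  rw [dl, dl, Line51.tl_apply, Line51.tl_apply, Line51.dm_congr h, h.self_of_nhds]

/-- push-forward of a field by a partial diffeomorphism -/
def pv (φ : PartialDiffeomorph I J M N ∞) (v : (x : M) → TangentSpace I x) (y : N) :
    TangentSpace J y := mf I J φ (φ.symm y) (v (φ.symm y))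

theorem pv_apply (φ : PartialDiffeomorph I J M N ∞) (v : (x : M) → TangentSpace I x) {x : M}
    (hx : x ∈ φ.source) : (pv φ v (φ x) : E') = mf I J φ x (v x) :=
  congrArg (fun z => mf I J φ z (v z)) (φ.left_inv hx)

theorem sm_pv (φ : PartialDiffeomorph I J M N ∞) {v : (x : M) → TangentSpace I x} (hv : SmV I v)
    {y : N} (hy : y ∈ φ.target) :
    ContMDiffAt J J.tangent ∞ (fun y => (⟨y, pv φ v y⟩ : TangentBundle J N)) y := by
  have h1 := φ.contMDiffOn_toFun.contMDiffOn_tangentMapWithin (m := ∞) (by simp)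
    φ.open_source.uniqueMDiffOn
  have h2 := h1.comp (ContMDiff.comp_contMDiffOn hv φ.contMDiffOn_invFun) fun z hz => φ.map_target hz
  refine (h2.congr fun z hz => ?_).contMDiffAt (φ.open_target.mem_nhds hy)
  simp only [comp, tangentMapWithin]
  rw [mfderivWithin_of_isOpen φ.open_source (show φ.invFun z ∈ _ from φ.map_target hz)]
  exact (congrArg (fun y => (⟨y, (pv φ v z : E')⟩ : TangentBundle J N)) (φ.right_inv hz)).symm

theorem mf_symm_mf (φ : PartialDiffeomorph I J M N ∞) {x : M} (hx : x ∈ φ.source) (w : E) :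
    mf J I φ.symm (φ x) (mf I J φ x w) = w := by
  have h := mf_comp ((Orx52.ldp φ.symm (φ.map_source hx)).mdifferentiableAt ne0)
    ((Orx52.ldp φ hx).mdifferentiableAt ne0)
  rw [mf_congr (Orx52.symm_comp φ hx), mf_id] at h
  exact (congrArg (fun L : E →L[ℝ] E => L w) h).symm

end gen

variable {Y Y' : CM 3} {R : CM 2}

theorem re_cay (s : ℝ) : (cay s : ℂ).re = 1 - 2 / (1 + s ^ 2) := by
  rw [cay, Circle.coe_exp, Complex.exp_ofReal_mul_I_re, add_comm, Real.cos_add_pi, Real.cos_two_mul,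
    Real.cos_sq_arctan]
  ring

theorem cay_zero : (cay 0 : ℂ) = -1 := by simp [cay]

theorem cay_eq {s : ℝ} : (cay s : ℂ) = -1 ↔ s = 0 := by
  refine ⟨fun h => ?_, fun h => h ▸ cay_zero⟩
  have h1 := re_cay s
  rw [h] at h1
  have h2 : 0 < 1 + s ^ 2 := by positivity
  have h3 : 2 / (1 + s ^ 2) = 2 := by simp at h1; linarith
  rw [div_eq_iff h2.ne'] at h3
  exact (pow_eq_zero_iff two_ne_zero).1 (by linarith)

theorem sm_cay : ContMDiff 𝓘(ℝ, ℝ) (𝓡 1) ∞ cay :=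
  contMDiff_circleExp.comp (contDiff_const.add (contDiff_const.mul Real.contDiff_arctan)).contMDiff

/-- the cut-off -/
def ka (z : Circle) : ℝ := Real.smoothTransition (-2 * (z : ℂ).re)

theorem sm_ka : ContMDiff (𝓡 1) 𝓘(ℝ, ℝ) ∞ ka :=
  (Real.smoothTransition.contDiff.comp (contDiff_const.mul Complex.reCLM.contDiff)).contMDiff.comp
    Glue52.contMDiff_circle_coe

theorem ka_cay {s : ℝ} (h : s ∉ Icc (-1 : ℝ) 1) : ka (cay s) = 0 := by
  refine Real.smoothTransition.zero_of_nonpos ?_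
  have h1 : 1 < s ^ 2 := (one_lt_sq_iff_one_lt_abs s).2 (not_le.1 fun a => h (abs_le.1 a))
  have h2 : 2 / (1 + s ^ 2) ≤ 1 := (div_le_one (by positivity)).2 (by linarith)
  rw [re_cay]
  linarith

theorem ka_one : ka 1 = 0 := Real.smoothTransition.zero_of_nonpos (by simp)

theorem ka_eq {z : Circle} (h : (z : ℂ).re < -1 / 2) : ka z = 1 :=
  Real.smoothTransition.one_of_one_le (by linarith)

/-- columns are carried to columns -/
theorem col_map (trk : TrkStmt) {v : Vf Y} {v' : Vf Y'} (hv : SmV (𝓡 3) v) (hv' : SmV (𝓡 3) v')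
    {Φ : Y → Circle} {Φ' : Y' → Circle} (ι : PartialDiffeomorph (𝓡 3) (𝓡 3) Y Y' ∞)
    (hs : ∀ y, y ∈ ι.source ↔ (Φ y : ℂ) ≠ -1) (hΦ : ∀ y ∈ ι.source, Φ' (ι y) = Φ y)
    (hg : ∀ y ∈ ι.source, ∃ g > (0 : ℝ), mf (𝓡 3) (𝓡 3) ι y (v y) = g • (v' (ι y) : EE 3))
    (K : Set Y) : ι '' col v Φ K ⊆ col v' Φ' (ι '' K) := by
  rintro _ ⟨y, ⟨T, h1, h2⟩, rfl⟩
  have cp := Flo26.complete_of_compactSpace hv
  have y0 : y ∈ ι.source := by
    have := h2 0 left_mem_uIcc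
    rwa [Flo26.fl_zero hv, ← hs] at this
  by_cases h0 : v y = 0
  · refine ⟨0, ?_, fun t ht => ?_⟩
    · rw [Flo26.fl_zero hv']
      exact ⟨y, (Flo26.fl_of_zero hv h0 T).2 ▸ h1, rfl⟩
    · rw [uIcc_self, mem_singleton_iff] at ht
      rwa [ht, Flo26.fl_zero hv', hΦ y y0, ← hs]
  have c : Continuous fun t => fl v t y :=
    continuous_iff_continuousAt.2 fun t => Flo26.continuousAt_time hv (cp _)
  obtain ⟨ε, e0, e1⟩ := isCompact_uIcc.exists_thickening_subset_open (ι.open_source.preimage c)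
    fun t ht => (hs _).2 (h2 t ht)
  have sub : uIcc 0 T ⊆ Ioo (min 0 T - ε) (max 0 T + ε) := fun t ht =>
    ⟨by linarith [ht.1], by linarith [ht.2]⟩
  have e2 : ∀ t ∈ Ioo (min 0 T - ε) (max 0 T + ε), fl v t y ∈ ι.source := fun t ht => by
    refine e1 (Metric.mem_thickening_iff.2 ⟨max (min 0 T) (min t (max 0 T)),
      ⟨le_max_left _ _, max_le min_le_max (min_le_right _ _)⟩, ?_⟩)
    rw [Real.dist_eq, abs_lt]
    have := ht.1
    have := ht.2
    have := min_le_max (a := (0 : ℝ)) (b := T)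
    constructor <;> simp only [max_def (min 0 T), min_def t] <;> split_ifs <;> linarith
  obtain ⟨τ, t1, -, t3⟩ := trk Y' v' (fun t => ι (fl v t y)) _ _ hv' fun t ht => by
    have l := Orx52.ldp ι (e2 t ht)
    obtain ⟨g, g0, g1⟩ := hg _ (e2 t ht)
    refine ⟨l.contMDiffAt.comp t ((Flo26.contMDiffAt_fl hv (cp (t, y))).comp t
      (f := fun t : ℝ => (t, y)) (contMDiffAt_id.prodMk contMDiffAt_const)), fun e => h0 ?_, g, g0, ?_⟩
    · have e3 : v (fl v t y) = 0 := by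
        have := mf_symm_mf ι (e2 t ht) (v (fl v t y))
        rw [g1, e, smul_zero, map_zero] at this
        exact this.symm
      have e4 := (Flo26.neg_mem_dom hv (cp (t, y))).2
      rw [(Flo26.fl_of_zero hv e3 (-t)).2] at e4
      rwa [e4] at e3
    · rw [mf_of_has (Flo26.hasMFDerivAt_comp_fl hv (cp (t, y)) (l.mdifferentiableAt ne0)), ← g1]
      exact one_smul ℝ _
  have t4 : ∀ t ∈ uIcc 0 T, fl v' (τ t - τ 0) (ι y) = ι (fl v t y) := fun t ht => by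
    have := t3 0 (sub left_mem_uIcc) t (sub ht)
    rwa [Flo26.fl_zero hv] at this
  refine ⟨τ T - τ 0, t4 T right_mem_uIcc ▸ mem_image_of_mem _ h1, fun t ht => ?_⟩
  obtain ⟨s, s1, s2⟩ := intermediate_value_uIcc ((t1.mono sub).sub (continuousOn_const (c := τ 0)))
    (show t ∈ uIcc (τ 0 - τ 0) (τ T - τ 0) by rwa [sub_self])
  rw [← s2, Pi.sub_apply, t4 s s1, hΦ _ (e2 s (sub s1))]
  exact h2 s s1

variable {b : R × ℝ → Y} {b' : R × ℝ → Y'} {h : Df R} {oR : Fm 2 R} {o : Fm 3 Y}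

theorem pos_symm (hR : Ori (𝓡 2) oR) (hh : Pos oR h) : Pos oR h.symm :=
  Orx52.Pos.of_comp_left (f := h) (g := h.symm) (t := univ)
    ((Orx52.pos_id.2 (Orx52.oriOn hR univ).same).congr isOpen_univ fun x _ => h.apply_symm_apply x)
    hh (fun y _ => h.isLocalDiffeomorph y) (fun y _ => h.symm.isLocalDiffeomorph y) (mapsTo_univ _ _)

theorem ld_px (h : Df R) (p : R × ℝ) : IsLocalDiffeomorphAt (IR 2) (IR 2) ∞ (px h) p :=
  Glue52.ld_prodMap_at (h.isLocalDiffeomorph p.1) (Glue52.ld_id p.2)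

theorem lo {p : R × ℝ} (h : p.2 < 0) : ∀ᶠ q in 𝓝 p, q.2 < 0 :=
  (isOpen_lt continuous_snd continuous_const).mem_nhds h

theorem hi {p : R × ℝ} (h : 0 < p.2) : ∀ᶠ q in 𝓝 p, 0 < q.2 :=
  (isOpen_lt continuous_const continuous_snd).mem_nhds h

/-- the orientation through a regluing -/
theorem oriRg (G : Rg b h b') (ho : Ori (𝓡 3) o) (hR : Ori (𝓡 2) oR) (hc : Cy oR o b)
    (hh : Pos oR h) : ∃ o' : Fm 3 Y', Ori (𝓡 3) o' ∧ Cy oR o' b' ∧
      SameOn (pm (𝓡 3) (𝓡 3) G.φ o') o G.φ.source := by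
  haveI := Orx52.sigmaCompact (𝓡 3) Y'
  obtain ⟨-, O, k1, -, k2, k3⟩ := Orx52.exists_ori_seam G.φ (Orx52.oriOn ho _)
    (q := fun _ : Unit => b') (fun _ => G.o'.loc) (Orx52.ori_cy hR)
    (fun x hx => by
      rw [G.tgt, notMem_compl_iff] at hx
      obtain ⟨p, -, e⟩ := hx
      exact ⟨(), p, e⟩)
    (fun _ => Orx52.dense_ne.mono fun _ => G.b'_mem.2) fun _ p hp => by
      have h0 := G.b'_mem.1 hp
      rcases h0.lt_or_gt with k | k
      · exact ⟨b, G.o.loc p, G.b_mem.2 h0, (lo k).mono fun q a => (G.lo q a).symm,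
          Orx52.Pos.mono hc (subset_univ _)⟩
      · refine ⟨b ∘ px h.symm, ld_comp (G.o.loc _) (ld_px _ p), G.b_mem.2 h0,
          (hi k).mono fun q a => ?_, Orx52.Pos.comp hc (((Orx52.Pos.cy (pos_symm hR hh)
            (fun y _ => h.symm.isLocalDiffeomorph y) (g := id) (g' := fun _ => 1) (t := univ)
            (fun x _ => hasDerivAt_id x) fun _ _ => one_pos)).mono fun _ _ => ⟨trivial, trivial⟩)
            (fun y _ => G.o.loc y) (fun y _ => ld_px _ y) (mapsTo_univ _ _)⟩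
        rw [comp_apply, comp_apply, G.hi (px h.symm q) a]
        exact congrArg b' (Prod.ext (h.apply_symm_apply _).symm rfl)
  exact ⟨O, k1, k3 (), k2⟩

theorem mf_px (h : Df R) (p : R × ℝ) : mf (IR 2) (IR 2) (px h) p (0, 1) = (0, 1) := by
  have d1 : MDifferentiableAt (IR 2) (𝓡 2) (h ∘ Prod.fst) p :=
    (h.mdifferentiable ne0 _).comp p mdifferentiableAt_fst
  rw [show px h = fun z : R × ℝ => ((h ∘ Prod.fst) z, z.2) from rfl,
    mf_prodMk d1 mdifferentiableAt_snd, mf_comp (h.mdifferentiable ne0 _) mdifferentiableAt_fst,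
    mf_fst, mf_snd]
  simp

theorem key (G : Rg b h b') {p : R × ℝ} (hp : p.2 ≠ 0) : ∃ x, G.φ (b p) = b' (x, p.2) ∧
    mf (𝓡 3) (𝓡 3) G.φ (b p) (mf (IR 2) (𝓡 3) b p (0, 1)) = mf (IR 2) (𝓡 3) b' (x, p.2) (0, 1) := by
  have e := mf_comp ((Orx52.ldp G.φ (G.b_mem.2 hp)).mdifferentiableAt ne0)
    ((G.o.loc p).mdifferentiableAt ne0)
  rcases hp.lt_or_gt with k | k
  · refine ⟨p.1, G.lo p k, ?_⟩
    rw [mf_congr (f := G.φ ∘ b) (g := b') ((lo k).mono G.lo)] at e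
    rw [e]
    rfl
  · refine ⟨h p.1, G.hi p k, ?_⟩
    rw [mf_congr (f := G.φ ∘ b) (g := b' ∘ px h) ((hi k).mono G.hi),
      mf_comp ((G.o'.loc _).mdifferentiableAt ne0) ((ld_px h p).mdifferentiableAt ne0)] at e
    have := congrArg (fun L : (EE 2 × ℝ) →L[ℝ] EE 3 => L (0, 1)) e
    simp only [ContinuousLinearMap.comp_apply, mf_px] at this
    exact this.symm

open Classical in
/-- the circle map of the reglued manifold -/
def ph (G : Rg b h b') (Φ : Y → Circle) (y : Y') : Circle :=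
  if y ∈ G.φ.target then Φ (G.φ.symm y) else cay 0

theorem ph_φ (G : Rg b h b') (Φ : Y → Circle) {y : Y} (hy : y ∈ G.φ.source) :
    ph G Φ (G.φ y) = Φ y := (if_pos (G.φ.map_source hy)).trans (congrArg Φ (G.φ.left_inv hy))

theorem ph_b (G : Rg b h b') {Φ : Y → Circle} (hΦ : ∀ p, Φ (b p) = cay p.2) (p : R × ℝ) :
    ph G Φ (b' p) = cay p.2 := by
  by_cases hp : p.2 = 0
  · rw [ph, if_neg fun a => G.b'_mem.1 a hp, hp]
  · obtain ⟨x, e⟩ := G.symm.exists_eq hp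
    rw [ph, if_pos (G.b'_mem.2 hp)]
    exact (congrArg Φ e).trans (hΦ _)

theorem cover (G : Rg b h b') (y : Y') : (∃ x ∈ G.φ.source, G.φ x = y) ∨ ∃ x, b' (x, 0) = y := by
  by_cases hy : y ∈ G.φ.target
  · exact .inl ⟨_, G.φ.map_target hy, G.φ.right_inv hy⟩
  · rw [G.tgt, notMem_compl_iff] at hy
    obtain ⟨p, h1, rfl⟩ := hy
    exact .inr ⟨p.1, congrArg b' (Prod.ext rfl (Eq.symm h1.2))⟩

theorem sm_ph (G : Rg b h b') {Φ : Y → Circle} (hs : SC Φ) (hΦ : ∀ p, Φ (b p) = cay p.2) :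
    SC (ph G Φ) := fun y => by
  rcases cover G y with ⟨x, hx, rfl⟩ | ⟨x, rfl⟩
  · exact Glue52.contMDiffAt_of_comp (Orx52.ldp G.φ hx) ((hs x).congr_of_eventuallyEq
      (eventually_of_mem (G.φ.open_source.mem_nhds hx) fun _ => ph_φ G Φ))
  · exact Glue52.contMDiffAt_of_comp (G.o'.loc _) (((sm_cay.comp contMDiff_snd) _).congr_of_eventuallyEq
      (Eventually.of_forall (ph_b G hΦ)))

theorem src_iff (G : Rg b h b') {Φ : Y → Circle} (hr : range b = {y | Φ y ≠ 1})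
    (hΦ : ∀ p, Φ (b p) = cay p.2) (y : Y) : y ∈ G.φ.source ↔ (Φ y : ℂ) ≠ -1 := by
  by_cases hy : y ∈ range b
  · obtain ⟨p, rfl⟩ := hy
    rw [G.b_mem, hΦ, Ne, Ne, cay_eq]
  · refine iff_of_true (G.mem_of_notMem (mem_univ _) fun ⟨p, _, e⟩ => hy ⟨p, e⟩) ?_
    rw [hr, mem_ofPred_eq, not_not] at hy
    rw [hy]
    norm_num

theorem smV_up {f : R × ℝ → ℝ} (hf : ContMDiff (IR 2) 𝓘(ℝ, ℝ) ∞ f) :
    SmV (IR 2) fun p : R × ℝ => (f p • ((0 : EE 2), (1 : ℝ)) : TangentSpace (IR 2) p) :=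
  Flo26.SmV.smul hf (Flo26.SmV.prod (a := fun _ => 0) (b := fun _ => (1 : ℝ))
    (ContMDiff.comp Flo26.SmV.zero contMDiff_fst)
    (ContMDiff.comp (Flo26.smV_model.2 contDiff_const) contMDiff_snd))

/-- the field through a regluing -/
theorem exists_field (G : Rg b h b') {v : Vf Y} {Φ : Y → Circle} (hv : SmV (𝓡 3) v) (hs : SC Φ)
    (hr : range b = {y | Φ y ≠ 1}) (hΦ : ∀ p, Φ (b p) = cay p.2) (hV : Vert v b) :
    ∃ v' : Vf Y', SmV (𝓡 3) v' ∧ Vert v' b' ∧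
      (∀ y ∈ G.φ.source, ∃ g > (0 : ℝ), mf (𝓡 3) (𝓡 3) G.φ y (v y) = g • (v' (G.φ y) : EE 3)) ∧
      ∀ y ∉ slab b (Icc (-1) 1), (v' (G.φ y) : EE 3) = mf (𝓡 3) (𝓡 3) G.φ y (v y) := by
  obtain ⟨V, V1, V2, V3⟩ := Flo26.exists_push G.o'.loc G.o'.inj
    (smV_up (sm_ka.comp (sm_cay.comp contMDiff_snd))) (isCompact_univ.prod isCompact_Icc)
    (K := univ ×ˢ Icc (-1) 1) fun p hp => by
      rw [comp_apply, comp_apply, ka_cay fun a => hp ⟨trivial, a⟩, zero_smul]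
  have V4 : ∀ p, (V (b' p) : EE 3) = ka (cay p.2) • mf (IR 2) (𝓡 3) b' p (0, 1) := fun p =>
    (V2 p).trans (map_smul (mf (IR 2) (𝓡 3) b' p) _ _)
  have sP := sm_ph G hs hΦ
  have out : ∀ y ∉ slab b (Icc (-1) 1), (V (G.φ y) + (1 - ka (ph G Φ (G.φ y))) • pv G.φ v (G.φ y) :
      EE 3) = mf (𝓡 3) (𝓡 3) G.φ y (v y) := fun y hy => by
    have y0 := G.mem_of_notMem (by simp) hy
    have k0 : ka (Φ y) = 0 := by
      by_cases a : y ∈ range b
      · obtain ⟨p, rfl⟩ := a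
        rw [hΦ, ka_cay fun c => hy ⟨p, ⟨trivial, c⟩, rfl⟩]
      · rw [hr, mem_ofPred_eq, not_not] at a
        rw [a, ka_one]
    rw [V3 _ fun a => hy ((G.mem_slab y0).1 a), ph_φ G Φ y0, k0, pv_apply _ _ y0]
    simp
  have ins : ∀ p : R × ℝ, p.2 ≠ 0 → ∃ x, G.φ (b p) = b' (x, p.2) ∧ ∃ f > (0 : ℝ), ∃ c > (0 : ℝ),
      f • mf (𝓡 3) (𝓡 3) G.φ (b p) (v (b p)) = mf (IR 2) (𝓡 3) b' (x, p.2) (0, 1) ∧
      (V (G.φ (b p)) + (1 - ka (ph G Φ (G.φ (b p)))) • pv G.φ v (G.φ (b p)) : EE 3) =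
        c • mf (𝓡 3) (𝓡 3) G.φ (b p) (v (b p)) := fun p hp => by
    obtain ⟨x, e1, e2⟩ := key G hp
    obtain ⟨f, f0, f1⟩ := hV p
    rw [f1, map_smul] at e2
    have k0 : 0 ≤ ka (cay p.2) := Real.smoothTransition.nonneg _
    have k1 : ka (cay p.2) ≤ 1 := Real.smoothTransition.le_one _
    refine ⟨x, e1, f, f0, ka (cay p.2) * f + (1 - ka (cay p.2)), ?_, e2, ?_⟩
    · rcases k0.eq_or_lt with a | a
      · simp [← a]
      · linarith [mul_pos a f0]
    · rw [pv_apply _ _ (G.b_mem.2 hp), ph_φ G Φ (G.b_mem.2 hp), hΦ, add_smul, mul_smul, e2,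
        ← V4 (x, p.2)]
      exact congrArg (fun y => (V y : EE 3) + _) e1
  refine ⟨fun y => V y + (1 - ka (ph G Φ y)) • pv G.φ v y, fun y => ?_, fun p => ?_,
    fun y hy => ?_, out⟩
  · rcases cover G y with ⟨x, hx, rfl⟩ | ⟨x, rfl⟩
    · exact ContMDiffAt.add_section (V1 _) (ContMDiffAt.smul_section
        (contMDiffAt_const.sub ((sm_ka.comp sP) _)) (sm_pv G.φ hv (G.φ.map_source hx)))
    · refine (V1 _).congr_of_eventuallyEq ?_
      have : ∀ᶠ y in 𝓝 (b' (x, 0)), (ph G Φ y : ℂ).re < -1 / 2 :=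
        (Complex.continuous_re.comp (Glue52.contMDiff_circle_coe.comp sP).continuous).continuousAt.eventually
          (gt_mem_nhds (by simp only [comp_apply, ph_b G hΦ, cay_zero]; norm_num))
      filter_upwards [this] with y hy
      simp [ka_eq hy]
  · by_cases hp : p.2 = 0
    · refine ⟨1, one_pos, ?_⟩
      have k : ka (cay p.2) = 1 := ka_eq (by rw [hp, cay_zero]; norm_num)
      simp only [ph_b G hΦ, k, sub_self, zero_smul, add_zero, one_smul]
      rw [V4, k, one_smul]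
    · obtain ⟨x, e⟩ := G.symm.exists_eq hp
      obtain ⟨x', e1, f, f0, c, c0, e2, e3⟩ := ins (x, p.2) hp
      have e4 : G.φ (b (x, p.2)) = b' p := e ▸ G.φ.right_inv (G.b'_mem.2 hp)
      rw [← show p = (x', p.2) from G.o'.inj (e4.symm.trans e1)] at e2
      refine ⟨f / c, div_pos f0 c0, ?_⟩
      rw [← e2, ← e4]
      refine Eq.trans ?_ (congrArg (fun w : EE 3 => (f / c) • w) e3).symm
      rw [smul_smul, div_mul_cancel₀ _ c0.ne']
  · by_cases a : y ∈ slab b (Icc (-1) 1)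
    · obtain ⟨p, -, rfl⟩ := a
      obtain ⟨x', -, f, -, c, c0, -, e3⟩ := ins p (G.b_mem.1 hy)
      refine ⟨c⁻¹, inv_pos.2 c0, Eq.trans ?_ (congrArg (fun w : EE 3 => c⁻¹ • w) e3).symm⟩
      rw [smul_smul, inv_mul_cancel₀ c0.ne', one_smul]
    · exact ⟨1, one_pos, ((one_smul ℝ _).trans (out y a)).symm⟩

theorem rt_b {v : Vf Y} {Φ : Y → Circle} (hb : Box b) (hs : SC Φ) (hΦ : ∀ p, Φ (b p) = cay p.2)
    (hV : Vert v b) (p : R × ℝ) :
    0 < rt Φ v (b p) ↔ 0 < dl (IR 2) (cay ∘ Prod.snd : R × ℝ → Circle) p (0, 1) := by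
  obtain ⟨f, f0, f1⟩ := hV p
  rw [← show Φ ∘ b = cay ∘ Prod.snd from funext hΦ, dl_comp (hs _) ((hb.loc p).mdifferentiableAt ne0),
    f1, map_smul, smul_eq_mul, mul_pos_iff_of_pos_left f0]
  rfl

/-- **REGL** -/
theorem regl (trk : TrkStmt) : ReglStmt := by
  intro Y Y' R b b' h G o oR v Φ M B X hh
  obtain ⟨o', o1, o2, o3⟩ := oriRg G B.ori X.ori X.cy hh
  obtain ⟨v', v1, v2, v3, v4⟩ := exists_field G B.smv B.smΦ X.rg X.ang X.vert
  have sP := sm_ph G B.smΦ X.ang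
  have src := src_iff G X.rg X.ang
  have s1 : ∀ y, Φ y = 1 → y ∈ G.φ.source := fun y e => (src y).2 (by rw [e]; norm_num)
  have n1 : ∀ p : R × ℝ, cay p.2 ≠ 1 := fun p => X.ang p ▸ X.rg.le ⟨p, rfl⟩
  have rg : range b' = {y | ph G Φ y ≠ 1} := by
    ext y
    refine ⟨fun ⟨p, e⟩ => e ▸ (ph_b G X.ang p).trans_ne (n1 p), fun hy => ?_⟩
    rcases cover G y with ⟨x, hx, rfl⟩ | ⟨x, rfl⟩
    · obtain ⟨p, rfl⟩ := X.rg.ge (show Φ x ≠ 1 from ph_φ G Φ hx ▸ hy)
      obtain ⟨x', e⟩ := G.exists_eq (G.b_mem.1 hx)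
      exact ⟨_, e.symm⟩
    · exact ⟨_, rfl⟩
  have r1 : ∀ y ∈ G.φ.source, ∃ g > (0 : ℝ), rt Φ v y = g * rt (ph G Φ) v' (G.φ y) := fun y hy => by
    obtain ⟨g, g0, g1⟩ := v3 y hy
    refine ⟨g, g0, ?_⟩
    rw [rt, ← dl_congr (g := ph G Φ ∘ G.φ) (eventually_of_mem (G.φ.open_source.mem_nhds hy)
      fun _ => ph_φ G Φ), dl_comp (sP _) ((Orx52.ldp G.φ hy).mdifferentiableAt ne0), g1, map_smul]
    rfl
  have r2 : ∀ p, 0 < rt (ph G Φ) v' (b' p) := fun p =>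
    (rt_b G.o' sP (ph_b G X.ang) v2 p).2 ((rt_b G.o B.smΦ X.ang X.vert p).1
      (B.pos _ fun a => n1 p ((X.ang p).symm.trans (B.one _ a))))
  have pp : PP (ph G Φ) (G.φ '' M) = G.φ '' PP Φ M := by
    ext y
    constructor
    · rintro ⟨h1, h2⟩
      rcases cover G y with ⟨x, hx, rfl⟩ | ⟨x, rfl⟩
      · exact ⟨x, ⟨(ph_φ G Φ hx).symm.trans h1, fun a => h2 ⟨x, a, rfl⟩⟩, rfl⟩
      · exact absurd h1 (rg.le ⟨_, rfl⟩)
    · rintro ⟨x, ⟨h1, h2⟩, rfl⟩
      exact ⟨(ph_φ G Φ (s1 x h1)).trans h1, fun ⟨z, z1, z2⟩ =>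
        h2 (G.φ.injOn (s1 z (B.one z z1)) (s1 x h1) z2 ▸ z1)⟩
  refine ⟨o', v', ph G Φ, ⟨o1, v1, sP, ?_, fun y => ?_, fun y hy => ?_, ?_⟩,
    ⟨X.ori, G.o', o2, rg, ph_b G X.ang, v2⟩, o3, fun _ => ph_φ G Φ, v3, v4, pp, fun K hK => ?_⟩
  · exact (B.cl.isCompact.image_of_continuousOn (G.φ.contMDiffOn_toFun.continuousOn.mono
      fun y hy => s1 y (B.one y hy))).isClosed
  · rcases cover G y with ⟨x, hx, rfl⟩ | ⟨x, rfl⟩
    · obtain ⟨g, g0, g1⟩ := r1 x hx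
      exact nonneg_of_mul_nonneg_right (g1 ▸ B.nn x) g0
    · exact (r2 _).le
  · rcases cover G y with ⟨x, hx, rfl⟩ | ⟨x, rfl⟩
    · obtain ⟨g, g0, g1⟩ := r1 x hx
      exact (mul_pos_iff_of_pos_left g0).1 (g1 ▸ B.pos x fun a => hy ⟨x, a, rfl⟩)
    · exact r2 _
  · rintro _ ⟨x, hx, rfl⟩
    exact (ph_φ G Φ (s1 x (B.one x hx))).trans (B.one x hx)
  · refine Subset.antisymm (fun y hy => ?_) (col_map trk B.smv v1 G.φ src (fun _ => ph_φ G Φ) v3 K)
    have src' := src_iff G.symm rg (ph_b G X.ang)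
    have y0 : y ∈ G.φ.target := by
      obtain ⟨T, -, h2⟩ := hy
      have := h2 0 left_mem_uIcc
      rw [Flo26.fl_zero v1] at this
      exact (src' y).2 this
    have h1 := col_map trk v1 B.smv (Φ' := Φ) G.φ.symm src' (fun z hz => (if_pos hz).symm)
      (fun z hz => by
        obtain ⟨x, hx, rfl⟩ : ∃ x ∈ G.φ.source, G.φ x = z := ⟨_, G.φ.map_target hz, G.φ.right_inv hz⟩
        obtain ⟨g, g0, g1⟩ := v3 x hx
        have := mf_symm_mf G.φ hx (v x)
        rw [g1, map_smul] at this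
        refine ⟨g⁻¹, inv_pos.2 g0, ?_⟩
        rw [eq_inv_smul_iff₀ g0.ne', this]
        exact (congrArg (fun z => (v z : EE 3)) (G.φ.left_inv hx)).symm) _ ⟨y, hy, rfl⟩
    rw [show G.φ.symm '' (G.φ '' K) = K from (image_image _ _ _).trans
      ((image_congr fun x hx => G.φ.left_inv (s1 x (hK hx).1)).trans (image_id' K))] at h1
    exact ⟨_, h1, G.φ.right_inv y0⟩

end Crest.Agent.X212.Rgl52
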